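import Vale.Agent.P216.Ch2.Ns2
import Vale.Agent.P216.Ch2.H456D.Glue
import Vale.Agent.P216.Ch2.H456D.TauOf

/-!
# P216-D, block [D-THOM], (T2) : gluing of the local Thom classes

`LUniq k n Q`: local uniqueness by slices (with loss of the radius) over the closed subsets of `Q`;
`LEx ω Q`: local existence over `Q` with slices `ω`.
`thom_glue`: over a finite closed cover they give the global class for every radius.
-/

set_option linter.all false

open Set

namespace Vale.Agent.P216.Ch2.H456D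

open Vale.Agent.P216 Vale.Agent.P216.Ch2
open Vale.Agent.P216.H456D

open Vale.Agent.P216.AS Vale.Agent.P216.Ch2.AS Vale.Agent.P216.H901 Vale.Agent.P216.Ch2.H901 Vale.Agent.P216.H83 Vale.Agent.P216.Ch2.H83 Vale.Agent.P216.H133C Vale.Agent.P216.Ch2.H133C

variable {M : Type} [MetricSpace M] {k : Type} [Field k] {n : ℕ}

/-- `{(a, b) | r ≤ dist a b, b ∈ K}` -/
def Nr (r : ℝ) (K : Set M) : Set (M × M) := {p | r ≤ dist p.1 p.2 ∧ p.2 ∈ K}

theorem Nr_sub (r : ℝ) (K : Set M) : Nr r K ⊆ (univ : Set M) ×ˢ K := fun _ h => ⟨mem_univ _, h.2⟩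

theorem Nr_anti {r r' : ℝ} (h : r' ≤ r) {K K' : Set M} (hK : K ⊆ K') : Nr r K ⊆ Nr r' K' :=
  fun _ hp => ⟨h.trans hp.1, hK hp.2⟩

theorem isCompact_Nr [CompactSpace M] {r : ℝ} {K : Set M} (hK : IsClosed K) :
    IsCompact (Nr r K) :=
  ((isClosed_le continuous_const (continuous_fst.dist continuous_snd)).inter
    (hK.preimage continuous_snd)).isCompact

/-- The slice `a ↦ (a, b)`. -/
def sli (b a : M) : M × M := (a, b)

theorem isMap_sli {L : Set M} {b : M} (hb : b ∈ L) :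
    IsMap (tr M) (tr (M × M)) (univ : Set M) ((univ : Set M) ×ˢ L) (sli b) where
  mapsX _ _ := ⟨mem_univ _, hb⟩
  eqv i := i.elim
  uc ε hε := ⟨ε, hε, fun x _ y _ h => by
    change dist (x, b) (y, b) < ε
    rw [Prod.dist_eq, dist_self]
    exact max_lt h hε⟩

/-- The (absolute) slice of a class. -/
noncomputable def slc {K : Set M} {A : Set (M × M)} {b : M} (hb : b ∈ K)
    (x : Hr (tr (M × M)) (on k) ((univ : Set M) ×ˢ K) A n) : Hr (tr M) (on k) (univ : Set M) ∅ n :=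
  pullR (on k) (isMap_sli hb) (empty_subset _) (mapsTo_empty _ ∅) n (lesA k _ A n x)

theorem slc_sub {K : Set M} {A : Set (M × M)} {b : M} (hb : b ∈ K)
    (x y : Hr (tr (M × M)) (on k) ((univ : Set M) ×ˢ K) A n) :
    slc hb (x - y) = slc hb x - slc hb y := by
  rw [slc, map_sub, map_sub]
  rfl

/-- Slices and restrictions. -/
theorem slc_res {K K' : Set M} {A A' : Set (M × M)} (hX : (univ : Set M) ×ˢ K' ⊆ univ ×ˢ K)
    (hA : A' ⊆ A) {b : M} (hb : b ∈ K) (hb' : b ∈ K')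
    (x : Hr (tr (M × M)) (on k) ((univ : Set M) ×ˢ K) A n) :
    slc hb' (resR hX hA n x) = slc hb x := by
  obtain ⟨c, hc, rfl⟩ := H.exists_mk x
  rfl

/-- Local uniqueness by slices. -/
def LUniq (k : Type) [Field k] (n : ℕ) (Q : Set M) : Prop :=
  ∀ K ⊆ Q, IsClosed K → ∀ r > 0, ∃ r' : ℝ, 0 < r' ∧ ∃ h : r' ≤ r,
    ∀ z : Hr (tr (M × M)) (on k) ((univ : Set M) ×ˢ K) (Nr r' K) n,
      (∀ b (hb : b ∈ K), slc hb z = 0) →
        (resR subset_rfl (Nr_anti h subset_rfl) n z :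
          Hr (tr (M × M)) (on k) ((univ : Set M) ×ˢ K) (Nr r K) n) = 0

/-- Local existence. -/
def LEx (ω : Hr (tr M) (on k) (univ : Set M) ∅ n) (Q : Set M) : Prop :=
  ∀ r > 0, ∃ x : Hr (tr (M × M)) (on k) ((univ : Set M) ×ˢ Q) (Nr r Q) n,
    ∀ b (hb : b ∈ Q), slc hb x = ω

theorem LEx.empty (ω : Hr (tr M) (on k) (univ : Set M) ∅ n) : LEx ω (∅ : Set M) :=
  fun _ _ => ⟨0, fun _ hb => absurd hb (notMem_empty _)⟩

/-- Transport of a class along equalities of sets. -/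
theorem exists_of_eq {X X' A A' : Set (M × M)} (hX : X = X') (hA : A = A')
    {P : ∀ (X A : Set (M × M)), Hr (tr (M × M)) (on k) X A n → Prop}
    (h : ∃ x, P X A x) : ∃ x, P X' A' x := by
  subst hX
  subst hA
  exact h

theorem LEx.union [CompactSpace M] (h2 : Ok k) {ω : Hr (tr M) (on k) (univ : Set M) ∅ n}
    {L Q : Set M} (cL : IsClosed L) (cQ : IsClosed Q) (hL : LEx ω L) (hQ : LEx ω Q)
    (hU : LUniq k n Q) : LEx ω (L ∪ Q) := by
  intro r hr
  obtain ⟨r', hr', hle, hz⟩ := hU (L ∩ Q) inter_subset_right (cL.inter cQ) r hr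
  obtain ⟨x₁, hx₁⟩ := hL r' hr'
  obtain ⟨x₂, hx₂⟩ := hQ r' hr'
  have cU : IsCompact (univ : Set M) := isCompact_univ
  have s1 : (univ : Set M) ×ˢ (L ∩ Q) ⊆ univ ×ˢ L := prod_mono_right inter_subset_left
  have s2 : (univ : Set M) ×ˢ (L ∩ Q) ⊆ univ ×ˢ Q := prod_mono_right inter_subset_right
  have key : (resR s1 (Nr_anti hle inter_subset_left) n x₁ :
      Hr (tr (M × M)) (on k) ((univ : Set M) ×ˢ (L ∩ Q)) (Nr r (L ∩ Q)) n) =
      resR s2 (Nr_anti hle inter_subset_right) n x₂ := by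
    have h1 := hz (resR s1 (Nr_anti le_rfl inter_subset_left) n x₁ -
      resR s2 (Nr_anti le_rfl inter_subset_right) n x₂) fun b hb => by
        rw [slc_sub, slc_res s1 _ hb.1 hb, slc_res s2 _ hb.2 hb, hx₁, hx₂, sub_self]
    rw [map_sub, sub_eq_zero] at h1
    obtain ⟨f, hf, rfl⟩ := H.exists_mk x₁
    obtain ⟨g, hg, rfl⟩ := H.exists_mk x₂
    exact h1
  have hI : ((univ : Set M) ×ˢ L) ∩ ((univ : Set M) ×ˢ Q) = univ ×ˢ (L ∩ Q) := by
    ext p; simp
  have hNI : Nr r L ∩ Nr r Q = Nr r (L ∩ Q) := by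
    ext p
    simp only [Nr, mem_inter_iff, mem_ofPred_eq]
    tauto
  obtain ⟨x, hx1, hx2⟩ := glue (k := k) h2 (cU.prod cL.isCompact) (cU.prod cQ.isCompact)
    (isCompact_Nr (r := r) cL) (isCompact_Nr (r := r) cQ) (Nr_sub r L) (Nr_sub r Q) n
    (resR subset_rfl (Nr_anti hle subset_rfl) n x₁) (resR subset_rfl (Nr_anti hle subset_rfl) n x₂) (by
      have e : ∀ (X A : Set (M × M)) (hX : X = ((univ : Set M) ×ˢ (L ∩ Q))) (hA : A = Nr r (L ∩ Q))
        (a1 : X ⊆ (univ : Set M) ×ˢ L) (a2 : A ⊆ Nr r L) (b1 : X ⊆ (univ : Set M) ×ˢ Q)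
        (b2 : A ⊆ Nr r Q),
          (resR a1 a2 n (resR subset_rfl (Nr_anti hle subset_rfl) n x₁) :
            Hr (tr (M × M)) (on k) X A n) =
          resR b1 b2 n (resR subset_rfl (Nr_anti hle subset_rfl) n x₂) := by
        rintro X A rfl rfl a1 a2 b1 b2
        have e1 : (resR a1 a2 n (resR subset_rfl (Nr_anti hle subset_rfl) n x₁) :
            Hr (tr (M × M)) (on k) _ _ n) = resR s1 (Nr_anti hle inter_subset_left) n x₁ := by
          obtain ⟨f, hf, rfl⟩ := H.exists_mk x₁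
          rfl
        have e2 : (resR b1 b2 n (resR subset_rfl (Nr_anti hle subset_rfl) n x₂) :
            Hr (tr (M × M)) (on k) _ _ n) = resR s2 (Nr_anti hle inter_subset_right) n x₂ := by
          obtain ⟨f, hf, rfl⟩ := H.exists_mk x₂
          rfl
        rw [e1, e2, key]
      exact e _ _ hI hNI _ _ _ _)
  have hX : ((univ : Set M) ×ˢ L) ∪ ((univ : Set M) ×ˢ Q) = univ ×ˢ (L ∪ Q) := by
    ext p; simp
  have hN : Nr r L ∪ Nr r Q = Nr r (L ∪ Q) := by
    ext p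
    simp only [Nr, mem_union, mem_ofPred_eq]
    tauto
  have main : ∀ (X A : Set (M × M)) (hX : X = ((univ : Set M) ×ˢ (L ∪ Q))) (hA : A = Nr r (L ∪ Q))
      (a1 : (univ : Set M) ×ˢ L ⊆ X) (a2 : Nr r L ⊆ A) (b1 : (univ : Set M) ×ˢ Q ⊆ X)
      (b2 : Nr r Q ⊆ A) (x : Hr (tr (M × M)) (on k) X A n),
      (resR a1 a2 n x = resR subset_rfl (Nr_anti hle subset_rfl) n x₁) →
      (resR b1 b2 n x = resR subset_rfl (Nr_anti hle subset_rfl) n x₂) →
      ∃ x : Hr (tr (M × M)) (on k) ((univ : Set M) ×ˢ (L ∪ Q)) (Nr r (L ∪ Q)) n,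
        ∀ b (hb : b ∈ L ∪ Q), slc hb x = ω := by
    rintro X A rfl rfl a1 a2 b1 b2 x h1 h3
    refine ⟨x, fun b hb => ?_⟩
    rcases hb with hb' | hb'
    · rw [← slc_res a1 a2 (Or.inl hb') hb' x, h1, slc_res _ _ hb' hb', hx₁]
    · rw [← slc_res b1 b2 (Or.inr hb') hb' x, h3, slc_res _ _ hb' hb', hx₂]
  exact main _ _ hX hN _ _ _ _ x hx1 hx2

/-- **(T2)** -/
theorem thom_glue [CompactSpace M] (h2 : Ok k) {ω : Hr (tr M) (on k) (univ : Set M) ∅ n}
    (Q : ℕ → Set M) (cQ : ∀ i, IsClosed (Q i)) (hE : ∀ i, LEx ω (Q i)) (hU : ∀ i, LUniq k n (Q i))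
    (N : ℕ) (hcov : ∀ x, ∃ i < N, x ∈ Q i) : LEx ω (univ : Set M) := by
  have key : ∀ N, LEx ω {x | ∃ i < N, x ∈ Q i} ∧ IsClosed {x | ∃ i < N, x ∈ Q i} := by
    intro N
    induction N with
    | zero =>
      have : {x : M | ∃ i < 0, x ∈ Q i} = ∅ := by ext x; simp
      rw [this]
      exact ⟨LEx.empty ω, isClosed_empty⟩
    | succ N ih =>
      have : {x : M | ∃ i < N + 1, x ∈ Q i} = {x | ∃ i < N, x ∈ Q i} ∪ Q N := by
        ext x
        constructor
        · rintro ⟨i, hi, hx⟩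
          rcases Nat.lt_succ_iff_lt_or_eq.1 hi with h | rfl
          · exact Or.inl ⟨i, h, hx⟩
          · exact Or.inr hx
        · rintro (⟨i, hi, hx⟩ | hx)
          · exact ⟨i, hi.trans (Nat.lt_succ_self _), hx⟩
          · exact ⟨N, Nat.lt_succ_self _, hx⟩
      rw [this]
      exact ⟨LEx.union h2 ih.2 (cQ N) ih.1 (hE N) (hU N), ih.2.union (cQ N)⟩
  have h := (key N).1
  have hu : {x | ∃ i < N, x ∈ Q i} = (univ : Set M) := eq_univ_of_forall hcov
  rwa [hu] at h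

end Vale.Agent.P216.Ch2.H456D
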