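import Vale.Agent.P216.Ch2.Ns2
import Vale.Agent.P216.Ch2.H456D.Thom2

/-!
# P216-D, block [D-THOM]: from `LEx ω univ` to Thom cochains
-/

set_option linter.all false

open Set

namespace Vale.Agent.P216.Ch2.H456D

open Vale.Agent.P216 Vale.Agent.P216.Ch2
open Vale.Agent.P216.H456D

open Vale.Agent.P216.AS Vale.Agent.P216.Ch2.AS Vale.Agent.P216.H901 Vale.Agent.P216.Ch2.H901 Vale.Agent.P216.H83 Vale.Agent.P216.Ch2.H83 Vale.Agent.P216.Sl Vale.Agent.P216.PS Vale.Agent.P216.H133C Vale.Agent.P216.Ch2.H133C Vale.Agent.P216.H456C Vale.Agent.P216.Ch2.H456C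

variable {M : Type} [MetricSpace M] {k : Type} [Field k] {n : ℕ}

/-- The global class on `M × M`. -/
theorem LEx.class {ω : Hr (tr M) (on k) (univ : Set M) ∅ n} (h : LEx ω (univ : Set M)) {r : ℝ}
    (hr : 0 < r) :
    ∃ x : Hr (tr (M × M)) (on k) (univ : Set (M × M)) {p : M × M | r ≤ dist p.1 p.2} n,
      ∀ b : M, pullR (on k) (isMap_slM b) (empty_subset _) (mapsTo_empty _ _) n
        (lesA k (univ : Set (M × M)) {p : M × M | r ≤ dist p.1 p.2} n x) = ω := by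
  obtain ⟨x, hx⟩ := h r hr
  have hX : (univ : Set (M × M)) ⊆ (univ : Set M) ×ˢ (univ : Set M) :=
    fun p _ => ⟨mem_univ _, mem_univ _⟩
  have hA : {p : M × M | r ≤ dist p.1 p.2} ⊆ Nr r (univ : Set M) := fun p hp => ⟨hp, mem_univ _⟩
  refine ⟨resR hX hA n x, fun b => ?_⟩
  rw [← hx b (mem_univ _)]
  obtain ⟨c, hc, rfl⟩ := H.exists_mk x
  rfl

/-- **Thom cochains with slices in the class of `w`.** -/
theorem exists_tau_of_LEx {w : List M → k} (hw : CocL (univ : Set M) n w)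
    (h : LEx (absE k univ n (cls (tr M) (on k) w hw)) (univ : Set M)) {ρ₁ : ℝ} (hρ : 0 < ρ₁) :
    ∃ τ : N929.Tau k M n ρ₁, ∀ y : M, ExL (univ : Set M) n fun l =>
      τ.f (l.map fun x => (x, y)) - w l := by
  obtain ⟨x, hx⟩ := h.class (half_pos hρ)
  exact exists_tau_class hρ (fun p hp => hp) x hw hx

end Vale.Agent.P216.Ch2.H456D
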