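import Vale.Agent.P216.Ch2.Ns2
import Vale.Agent.P216.Ch2.H456D.Thom2Tau
import Vale.Agent.P216.Ch2.D246.Chart

/-!
# P216-D, block [D-THOM], (T2) : the gluing of the local Thom classes over the coordinate cubes
-/

set_option linter.all false

open Set

namespace Vale.Agent.P216.Ch2.H456D

open Vale.Agent.P216 Vale.Agent.P216.Ch2
open Vale.Agent.P216.H456D

open Vale.Agent.P216.AS Vale.Agent.P216.Ch2.AS Vale.Agent.P216.H901 Vale.Agent.P216.Ch2.H901 Vale.Agent.P216.H83 Vale.Agent.P216.Ch2.H83 Vale.Agent.P216.Sl Vale.Agent.P216.PS Vale.Agent.P216.H133C Vale.Agent.P216.Ch2.H133C Vale.Agent.P216.H456C Vale.Agent.P216.Ch2.H456C Vale.Agent.P216.C313 Vale.Agent.P216.Ch2.C313 Vale.Agent.P216.D246 Vale.Agent.P216.Ch2.D246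

variable {M : Type} [MetricSpace M] [CompactSpace M] {k : Type} [Field k] {n : ℕ}

/-- The closed unit cube of a chart. -/
def Qc (c : Cub M n) : Set M := {a | a ∈ c.D ∧ ‖c.φ a‖ ≤ 1}

theorem isClosed_Qc (c : Cub M n) : IsClosed (Qc c) := by
  have h := c.φ_cont.norm.preimage_isClosed_of_isClosed c.closed (isClosed_Iic (a := (1 : ℝ)))
  exact h

theorem isOpen_Uc (c : Cub M n) : IsOpen {a | a ∈ c.D ∧ ‖c.φ a‖ < 1} := by
  have h := (c.φ_cont.norm.mono (fun a (ha : a ∈ {x | x ∈ c.D ∧ ‖c.φ x‖ < 2}) =>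
    ha.1)).isOpen_inter_preimage c.open_int (isOpen_Iio (a := (1 : ℝ)))
  have e : {a | a ∈ c.D ∧ ‖c.φ a‖ < 1} = {x | x ∈ c.D ∧ ‖c.φ x‖ < 2} ∩
      (fun a => ‖c.φ a‖) ⁻¹' Iio 1 := by
    ext a
    exact ⟨fun ha => ⟨⟨ha.1, ha.2.trans (by norm_num)⟩, ha.2⟩, fun ha => ⟨ha.1.1, ha.2⟩⟩
  rw [e]
  exact h

theorem exists_delta (c : Cub M n) {r : ℝ} (hr : 0 < r) : ∃ δ : ℝ, 0 < δ ∧ δ ≤ 1 ∧
    ∀ K ⊆ Qc c, Nr r K ⊆ c.Ad c.φ δ K := by
  have hc : IsCompact {y : Fin n → ℝ | ‖y‖ ≤ 2} := by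
    have : {y : Fin n → ℝ | ‖y‖ ≤ 2} = Metric.closedBall 0 2 := by
      ext y; simp
    rw [this]
    exact isCompact_closedBall _ _
  obtain ⟨δ, hδ, hu⟩ := (Metric.uniformContinuousOn_iff.1
    (hc.uniformContinuousOn_of_continuous c.ψ_cont)) r hr
  refine ⟨min δ 1, lt_min hδ one_pos, min_le_right _ _, fun K hK p hp => ⟨hp.2, fun hD => ?_⟩⟩
  by_contra hcon
  have h1 := lt_of_lt_of_le (not_le.1 hcon) (min_le_left _ _)
  have h2 := hu (c.φ p.1) (c.φ_le _ hD) (c.φ p.2) (c.φ_le _ (hK hp.2).1) (by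
    rw [dist_eq_norm]; exact h1)
  rw [c.ψφ _ hD, c.ψφ _ (hK hp.2).1] at h2
  exact absurd hp.1 (not_le.2 h2)

theorem bnd (c : Cub M n) {K : Set M} (hK : K ⊆ Qc c) {δ : ℝ} (hδ1 : δ ≤ 1) :
    ∀ z ∈ K, ‖c.φ z‖ + δ ≤ 2 := fun z hz => by
  have := (hK hz).2
  linarith

theorem cont (c : Cub M n) {K : Set M} (hK : K ⊆ Qc c) : ContinuousOn c.φ K :=
  c.φ_cont.mono fun _ hz => (hK hz).1

theorem exists_radius (c : Cub M n) {K : Set M} (hK : K ⊆ Qc c) (cK : IsClosed K) {δ : ℝ}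
    (hδ : 0 < δ) (hδ1 : δ ≤ 1) : ∃ r : ℝ, 0 < r ∧ c.Ad c.φ δ K ⊆ Nr r K := by
  have hc := Cub.compact_Ad (c := c) (δ := δ) cK.isCompact (cont c hK) (bnd c hK hδ1)
  rcases (c.Ad c.φ δ K).eq_empty_or_nonempty with h | h
  · exact ⟨1, one_pos, by rw [h]; exact empty_subset _⟩
  obtain ⟨p, hp, hmin⟩ := hc.exists_isMinOn h
    (continuous_fst.dist continuous_snd : Continuous fun p : M × M => dist p.1 p.2).continuousOn
  refine ⟨dist p.1 p.2, dist_pos.2 fun he => ?_, fun q hq => ⟨hmin hq, hq.1⟩⟩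
  have h1 := hp.2 (by rw [he]; exact (hK hp.1).1)
  rw [he, sub_self, norm_zero] at h1
  exact absurd h1 (not_le.2 hδ)

/-- The slice of the restriction to `Ad`. -/
theorem lesA_sz {K : Set M} {c : Cub M n} {δ : ℝ} {b : M} (hb : b ∈ K)
    (x : Hr (tr (M × M)) (on k) ((univ : Set M) ×ˢ K) (c.Ad c.φ δ K) n) :
    lesA k (univ : Set M) (c.A1 (c.φ b) δ) n (pullR (on k) (Cub.isMap_sz hb) (subset_univ _)
      (Cub.mapsTo_sz hb) n x) = slc hb x := by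
  obtain ⟨f, hf, rfl⟩ := H.exists_mk x
  rfl

theorem lUniq_of (h2 : Ok k) (c : Cub M n)
    (hInj : ∀ (v : Fin n → ℝ) (δ : ℝ), 0 < δ → ‖v‖ + δ ≤ 2 → Function.Injective
      (lesA k (univ : Set M) (c.A1 v δ) n :
        Hr (tr M) (on k) (univ : Set M) (c.A1 v δ) n → Hr (tr M) (on k) (univ : Set M) ∅ n)) :
    LUniq k n (Qc c) := by
  intro K hK cK r hr
  obtain ⟨δ, hδ, hδ1, hA⟩ := exists_delta c hr
  obtain ⟨r₁, hr₁, hA'⟩ := exists_radius c hK cK hδ hδ1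
  have hA2 : c.Ad c.φ δ K ⊆ Nr (min r r₁) K :=
    hA'.trans (Nr_anti (min_le_right _ _) subset_rfl)
  refine ⟨min r r₁, lt_min hr hr₁, min_le_left _ _, fun z hz => ?_⟩
  have h0 : (resR subset_rfl hA2 n z :
      Hr (tr (M × M)) (on k) ((univ : Set M) ×ˢ K) (c.Ad c.φ δ K) n) = 0 := by
    refine Cub.loc_uniq h2 hδ cK.isCompact (cont c hK) (bnd c hK hδ1) _ fun b hb => ?_
    apply hInj (c.φ b) δ hδ (bnd c hK hδ1 b hb)
    rw [lesA_sz hb, map_zero, slc_res subset_rfl hA2 hb hb, hz]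
  have e : (resR subset_rfl (Nr_anti (min_le_left _ _) subset_rfl) n z :
      Hr (tr (M × M)) (on k) ((univ : Set M) ×ˢ K) (Nr r K) n) =
      resR subset_rfl (hA K hK) n (resR subset_rfl hA2 n z) := by
    obtain ⟨f, hf, rfl⟩ := H.exists_mk z
    rfl
  rw [e, h0, map_zero]

theorem lEx_of (h2 : Ok k) (c : Cub M n) {ω : Hr (tr M) (on k) (univ : Set M) ∅ n}
    (ι : Hr (tr (Unit × (Fin n → ℝ))) (on k) (cbE n (univ : Set Unit)) (bdE n univ ∅) n)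
    (hι : ∀ (v : Fin n → ℝ) (δ : ℝ) (hδ : 0 < δ) (hb : ‖v‖ + δ ≤ 2)
      (x : Hr (tr M) (on k) (univ : Set M) (c.A1 v δ) n),
      pullR (on k) (Cub.isMap_th hδ.le hb) bdE_sub (Cub.mapsTo_th hδ.le hb) n x = ι →
        lesA k (univ : Set M) (c.A1 v δ) n x = ω) : LEx ω (Qc c) := by
  intro r hr
  obtain ⟨δ, hδ, hδ1, hA⟩ := exists_delta c hr
  obtain ⟨x, hx⟩ := Cub.loc_exist (c := c) h2 hδ (isClosed_Qc c).isCompact (cont c subset_rfl)
    (bnd c subset_rfl hδ1) ι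
  refine ⟨resR subset_rfl (hA _ subset_rfl) n x, fun b hb => ?_⟩
  rw [slc_res subset_rfl _ hb hb, ← lesA_sz]
  exact hι _ _ hδ (bnd c subset_rfl hδ1 b hb) _ (hx b hb)

/-- **(T2)**: the global Thom class of a closed manifold. -/
theorem glueT {k : Type} [Field k] (h2 : Ok k) {M : Type} [MetricSpace M] [CompactSpace M]
    {n : ℕ} (loc : LocEuc M n) (ω : Hr (tr M) (on k) (univ : Set M) ∅ n)
    (hInj : ∀ (c : Cub M n) (v : Fin n → ℝ) (δ : ℝ), 0 < δ → ‖v‖ + δ ≤ 2 → Function.Injective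
      (lesA k (univ : Set M) (c.A1 v δ) n :
        Hr (tr M) (on k) (univ : Set M) (c.A1 v δ) n → Hr (tr M) (on k) (univ : Set M) ∅ n))
    (hBI : ∀ c : Cub M n, ∃ ι : Hr (tr (Unit × (Fin n → ℝ))) (on k) (cbE n (univ : Set Unit))
      (bdE n univ ∅) n, ∀ (v : Fin n → ℝ) (δ : ℝ) (hδ : 0 < δ) (hb : ‖v‖ + δ ≤ 2)
      (x : Hr (tr M) (on k) (univ : Set M) (c.A1 v δ) n),
      pullR (on k) (Cub.isMap_th hδ.le hb) bdE_sub (Cub.mapsTo_th hδ.le hb) n x = ι →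
        lesA k (univ : Set M) (c.A1 v δ) n x = ω) : LEx ω (univ : Set M) := by
  classical
  rcases isEmpty_or_nonempty M with hM | ⟨⟨x₀⟩⟩
  · exact fun r hr => ⟨0, fun b _ => hM.elim b⟩
  choose c hc1 hc2 using loc
  obtain ⟨t, ht⟩ := isCompact_univ.elim_finite_subcover (fun x : M => {a | a ∈ (c x).D ∧
    ‖(c x).φ a‖ < 1}) (fun x => isOpen_Uc (c x)) fun x _ => mem_iUnion.2 ⟨x, hc1 x, by
      rw [hc2, norm_zero]; exact one_pos⟩
  let l := t.toList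
  refine thom_glue h2 (fun i => Qc (c (l.getD i x₀))) (fun i => isClosed_Qc _) (fun i => ?_)
    (fun i => lUniq_of h2 _ (hInj _)) l.length fun x => ?_
  · obtain ⟨ι, hι⟩ := hBI (c (l.getD i x₀))
    exact lEx_of h2 _ ι hι
  · obtain ⟨y, hy, hxy⟩ := mem_iUnion₂.1 (ht (mem_univ x))
    obtain ⟨i, hi, he⟩ := List.getElem_of_mem (Finset.mem_toList.2 hy)
    refine ⟨i, hi, ?_⟩
    have : l.getD i x₀ = y := by
      rw [List.getD_eq_getElem _ _ hi]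
      exact he
    rw [this]
    exact ⟨hxy.1, hxy.2.le⟩

/-- **(T2)**, in the form with the class on `(M × M, {r ≤ dist})`. -/
theorem glueT' {k : Type} [Field k] (h2 : Ok k) {M : Type} [MetricSpace M] [CompactSpace M]
    {n : ℕ} (loc : LocEuc M n) (ω : Hr (tr M) (on k) (univ : Set M) ∅ n)
    (hInj : ∀ (c : Cub M n) (v : Fin n → ℝ) (δ : ℝ), 0 < δ → ‖v‖ + δ ≤ 2 → Function.Injective
      (lesA k (univ : Set M) (c.A1 v δ) n :
        Hr (tr M) (on k) (univ : Set M) (c.A1 v δ) n → Hr (tr M) (on k) (univ : Set M) ∅ n))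
    (hBI : ∀ c : Cub M n, ∃ ι : Hr (tr (Unit × (Fin n → ℝ))) (on k) (cbE n (univ : Set Unit))
      (bdE n univ ∅) n, ∀ (v : Fin n → ℝ) (δ : ℝ) (hδ : 0 < δ) (hb : ‖v‖ + δ ≤ 2)
      (x : Hr (tr M) (on k) (univ : Set M) (c.A1 v δ) n),
      pullR (on k) (Cub.isMap_th hδ.le hb) bdE_sub (Cub.mapsTo_th hδ.le hb) n x = ι →
        lesA k (univ : Set M) (c.A1 v δ) n x = ω) : ∀ r > 0,
    ∃ x : Hr (tr (M × M)) (on k) (univ : Set (M × M)) {p : M × M | r ≤ dist p.1 p.2} n,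
      ∀ b : M, pullR (on k) (isMap_slM b) (empty_subset _) (mapsTo_empty _ _) n
        (lesA k (univ : Set (M × M)) {p : M × M | r ≤ dist p.1 p.2} n x) = ω := fun r hr =>
  (glueT h2 loc ω hInj hBI).class hr

end Vale.Agent.P216.Ch2.H456D
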